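import Vale.Agent.P002.Frames.Rotation
import Vale.Agent.P002.Torus.Main
import Vale.Agent.P002.Sphere.Main

/-!
# One-field Zariski density of integral representations of punctured curves

For a curve of genus `g` with `k + 1` punctures and Euler characteristic at most `-2`, every rank
`r ≥ 2` and quasi-unipotent boundary classes having cyclic vectors (one of them with
distinct eigenvalues, or `r` odd and at least two punctures), the irreducible integral points over one number field are Zariski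
dense in a nonempty open piece, around an irreducible representation, of the space of representations; this
piece has irreducible Zariski closure. For positive genus, at least two punctures and `r ≥ 3` the
whole space is irreducible and the integral points are dense in all of it. For genus zero, at
least four punctures and `r ≥ 3` the same holds for all choices of such classes.
-/

open Matrix Filter Topology

namespace Vale.Agent.Results.P002.PuncturedCurveDensity

/-- Square matrices. -/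
abbrev Mat (r : ℕ) : Type := Matrix (Fin r) (Fin r) ℂ

/-- Representations of the fundamental group of a genus `g` curve with `s` punctures, the `i`-th
boundary matrix being conjugate in `SL_r` to `J i`. -/
def Hom (g : ℕ) {r s : ℕ} (J : Fin s → Mat r) :
    Set ((Fin g → Mat r × Mat r) × (Fin s → Mat r)) :=
  {p | (∀ i, (p.1 i).1.det = 1 ∧ (p.1 i).2.det = 1) ∧
    (∀ i, ∃ k : Mat r, k.det = 1 ∧ p.2 i = k * J i * k.adjugate) ∧
    (List.ofFn fun i => (p.1 i).1 * (p.1 i).2 * (p.1 i).1.adjugate * (p.1 i).2.adjugate).prod *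
      (List.ofFn p.2).prod = 1}

/-- Indices of the entries of a tuple. -/
abbrev Coord (g s r : ℕ) : Type := (Fin g × Bool × Fin r × Fin r) ⊕ (Fin s × Fin r × Fin r)

/-- The entry of `p` at an index; `false` is the first matrix of a handle, `true` the second. -/
def entries {g s r : ℕ} (p : (Fin g → Mat r × Mat r) × (Fin s → Mat r)) : Coord g s r → ℂ :=
  Sum.elim (fun q => (if q.2.1 then (p.1 q.1).2 else (p.1 q.1).1) q.2.2.1 q.2.2.2)
    fun q => p.2 q.1 q.2.1 q.2.2

/-- The matrices of the tuple generate all matrices. -/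
def Gen {g s r : ℕ} (p : (Fin g → Mat r × Mat r) × (Fin s → Mat r)) : Prop :=
  Algebra.adjoin ℂ (Set.range (fun i => (p.1 i).1) ∪ Set.range (fun i => (p.1 i).2) ∪
    Set.range p.2) = ⊤

/-- A polynomial in the entries vanishing at all generating points of `Hom g J` with entries
integral in `L` vanishes on `S`. -/
def DenseOn {g s r : ℕ} (J : Fin s → Mat r) (L : IntermediateField ℚ ℂ)
    (S : Set ((Fin g → Mat r × Mat r) × (Fin s → Mat r))) : Prop :=
  ∀ x ∈ S, ∀ f : MvPolynomial (Coord g s r) ℂ,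
    (∀ y ∈ Hom g J, Gen y → (∀ q, entries y q ∈ L ∧ IsIntegral ℤ (entries y q)) →
      MvPolynomial.eval (entries y) f = 0) →
      MvPolynomial.eval (entries x) f = 0

/-- If a product of two polynomials in the entries vanishes on `S`, one of them does. -/
def PrimeOn {g s r : ℕ} (S : Set ((Fin g → Mat r × Mat r) × (Fin s → Mat r))) : Prop :=
  ∀ f₁ f₂ : MvPolynomial (Coord g s r) ℂ,
    (∀ x ∈ S, MvPolynomial.eval (entries x) (f₁ * f₂) = 0) →
      (∀ x ∈ S, MvPolynomial.eval (entries x) f₁ = 0) ∨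
        (∀ x ∈ S, MvPolynomial.eval (entries x) f₂ = 0)

theorem result : ∀ (g r k : ℕ) (J : Fin (k + 1) → Mat r), 2 ≤ r → 3 ≤ 2 * g + k →
    (∀ i, (J i).det = 1) →
    (∀ i, ∀ μ : ℂ, (J i).charpoly.IsRoot μ → ∃ N > 0, μ ^ N = 1) →
    (∀ i, ∃ v : Fin r → ℂ,
      Submodule.span ℂ (Set.range fun j : Fin r => (J i ^ (j : ℕ)) *ᵥ v) = ⊤) →
    ∃ L : IntermediateField ℚ ℂ, FiniteDimensional ℚ L ∧
      (((∃ i, (J i).charpoly.roots.Nodup) ∨ (Odd r ∧ 1 ≤ k)) →
        (∃ p ∈ Hom g J, Gen p ∧ ∃ U, IsOpen U ∧ p ∈ U ∧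
          DenseOn J L (U ∩ Hom g J) ∧ PrimeOn (U ∩ Hom g J)) ∧
        (1 ≤ g → 1 ≤ k → 3 ≤ r → DenseOn J L (Hom g J) ∧ PrimeOn (Hom g J))) ∧
      (g = 0 → 3 ≤ k → 3 ≤ r → DenseOn J L (Hom g J) ∧ PrimeOn (Hom g J) ∧
        ((Hom g J).Nonempty → ∃ p ∈ Hom g J, Gen p)) := by
  intro g r k J hr hχ hdet hroot hcyc
  obtain ⟨n, rfl⟩ : ∃ n, r = n + 1 := ⟨r - 1, by omega⟩
  have hC : ((∃ i, (J i).charpoly.roots.Nodup) ∨ (Odd (n + 1) ∧ 1 ≤ k)) →
      Vale.Agent.P002.Frames.Concl g J := by
    rintro (⟨i, hi⟩ | ⟨hodd, hk⟩)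
    · refine Vale.Agent.P002.Frames.Concl.move i hdet
        (Vale.Agent.P002.Frames.main_last _ hχ (Vale.Agent.P002.Frames.det_classEnd hdet)
          (fun l => ?_) (fun l => ?_) (Or.inl ?_))
      · refine Fin.lastCases ?_ (fun a => ?_) l <;>
          simpa [Vale.Agent.P002.Frames.classEnd] using hroot _
      · refine Fin.lastCases ?_ (fun a => ?_) l <;>
          simpa [Vale.Agent.P002.Frames.classEnd] using hcyc _
      · simpa [Vale.Agent.P002.Frames.classEnd] using hi
    · exact Vale.Agent.P002.Frames.main_last J hχ hdet hroot hcyc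
        (Or.inr ⟨by rcases Nat.even_or_odd n with h | h
                    · exact h
                    · exact absurd (h.add_one) (Nat.not_even_iff_odd.2 hodd), hk⟩)
  by_cases hsph : g = 0 ∧ 3 ≤ k ∧ 3 ≤ n + 1
  · obtain ⟨rfl, hk, hn⟩ := hsph
    obtain ⟨L, hL, hgen, hdense, hprime⟩ :=
      Vale.Agent.P002.Sphere.whole_sphere hk hn J hdet hroot hcyc
    refine ⟨L, hL, fun hsp => ⟨?_, fun h => absurd h (by omega)⟩,
      fun _ _ _ => ⟨hdense, hprime, hgen⟩⟩
    obtain ⟨-, -, p, hp, hpA, -⟩ := hC hsp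
    exact ⟨p, hp, hpA, Set.univ, isOpen_univ, trivial, fun x hx => hdense x hx.2,
      fun f₁ f₂ h12 => (hprime f₁ f₂ fun x hx => h12 x ⟨trivial, hx⟩).imp
        (fun h x hx => h x hx.2) (fun h x hx => h x hx.2)⟩
  by_cases hsp : (∃ i, (J i).charpoly.roots.Nodup) ∨ (Odd (n + 1) ∧ 1 ≤ k)
  · obtain ⟨L, hL, p, hp, hpA, U, hUo, hpU, hcl, hprime⟩ := hC hsp
    refine ⟨L, hL, fun _ => ⟨⟨p, hp, hpA, U, hUo, hpU, hcl, hprime⟩, fun hg hk hr3 => ?_⟩,
      fun h1 h2 h3 => absurd ⟨h1, h2, h3⟩ hsph⟩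
    obtain ⟨g, rfl⟩ : ∃ g', g = g' + 1 := ⟨g - 1, by omega⟩
    obtain ⟨m, rfl⟩ : ∃ m, k = m + 1 := ⟨k - 1, by omega⟩
    exact Vale.Agent.P002.Torus.whole_of_piece hr3 hdet
      (Vale.Agent.P002.Frames.cyclic_of_span (hcyc 0))
      (Vale.Agent.P002.Frames.cyclic_of_span (hcyc 1)) hp hpA hUo hpU hcl hprime
  · exact ⟨⊥, inferInstance, fun h => absurd h hsp, fun h1 h2 h3 => absurd ⟨h1, h2, h3⟩ hsph⟩

end Vale.Agent.Results.P002.PuncturedCurveDensity
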