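import Vale.Agent.P002.Global.Closed
import Vale.Agent.P002.Global.Genus
import Vale.Agent.P002.Two.Base

/-!
# Zariski density of integral points in the whole representation space of a punctured curve

For a curve of genus `g ≥ 2` with any number of punctures, any rank `r ≥ 2` and any quasi-unipotent
boundary classes, the integral points over one number field are Zariski dense in the whole space
of representations, and this space is irreducible; without punctures the field is `ℚ`.
-/

open Matrix

namespace Vale.Agent.Results.P002.WholeSpaceDensity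

open Vale.Agent.P002.Surface (Mat Tup rel)

/-- Representations of the fundamental group of a genus `g` curve with `s` punctures, the `i`-th
boundary matrix being conjugate in `SL_r` to `J i`. -/
def Hom (g : ℕ) {r s : ℕ} (J : Fin s → Mat r) : Set (Tup g r × (Fin s → Mat r)) :=
  {p | (∀ i, (p.1 i).1.det = 1 ∧ (p.1 i).2.det = 1) ∧
    (∀ i, ∃ k : Mat r, k.det = 1 ∧ p.2 i = k * J i * k.adjugate) ∧
    rel p.1 * (List.ofFn p.2).prod = 1}

/-- Indices of the entries of a tuple. -/
abbrev Coord (g s r : ℕ) : Type := (Fin g × Bool × Fin r × Fin r) ⊕ (Fin s × Fin r × Fin r)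

/-- The entry of `p` at an index; `false` is the first matrix of a handle, `true` the second. -/
def entries {g s r : ℕ} (p : Tup g r × (Fin s → Mat r)) : Coord g s r → ℂ :=
  Sum.elim (fun q => (if q.2.1 then (p.1 q.1).2 else (p.1 q.1).1) q.2.2.1 q.2.2.2)
    fun q => p.2 q.1 q.2.1 q.2.2

theorem result : ∀ (g r s : ℕ) (J : Fin s → Mat r), 2 ≤ r → (∀ i, (J i).det = 1) →
    (∀ i, ∀ μ : ℂ, (J i).charpoly.IsRoot μ → ∃ N > 0, μ ^ N = 1) →
    2 ≤ g →
    ∃ L : IntermediateField ℚ ℂ, FiniteDimensional ℚ L ∧ (s = 0 → L = ⊥) ∧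
      (∃ p ∈ Hom g J, ∃ i, Algebra.adjoin ℂ ({(p.1 i).1, (p.1 i).2} : Set (Mat r)) = ⊤) ∧
      (∀ x ∈ Hom g J, ∀ f : MvPolynomial (Coord g s r) ℂ,
        (∀ y ∈ Hom g J, (∀ q, entries y q ∈ L ∧ IsIntegral ℤ (entries y q)) →
          (∃ i, Algebra.adjoin ℂ ({(y.1 i).1, (y.1 i).2} : Set (Mat r)) = ⊤) →
            MvPolynomial.eval (entries y) f = 0) → MvPolynomial.eval (entries x) f = 0) ∧
      ∀ f₁ f₂ : MvPolynomial (Coord g s r) ℂ,
        (∀ x ∈ Hom g J, MvPolynomial.eval (entries x) (f₁ * f₂) = 0) →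
        (∀ x ∈ Hom g J, MvPolynomial.eval (entries x) f₁ = 0) ∨
          (∀ x ∈ Hom g J, MvPolynomial.eval (entries x) f₂ = 0) := by
  intro g r s J hr hdet hroot hg
  obtain ⟨L, ⟨hfin, hQ⟩, h⟩ :=
    Vale.Agent.P002.Global.whole_density_genus g r s J hr hdet hg (by
      rcases eq_or_ne s 0 with rfl | hs
      · exact Vale.Agent.P002.Global.seed_closed g r J hr
      rcases (show g = 2 ∨ 3 ≤ g by omega) with rfl | hg3
      · exact Vale.Agent.P002.Two.exists_seed r s J hr hdet hroot hs
      · exact Vale.Agent.P002.Global.seed_of_three g r s J hr hdet hroot hg3 hs)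
  exact ⟨L, hfin, hQ, h⟩

end Vale.Agent.Results.P002.WholeSpaceDensity
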